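import Vale.Agent.P352X.EH.Defs
import Vale.Agent.P352NA.Pub

/-!
# P352G: graded nets without energy bounds, the new basic vocabulary
-/

set_option linter.all false

open Filter Topology
open scoped ComplexConjugate

noncomputable section

namespace Vale.Agent.P352G

open Vale.Agent.P352 Vale.Agent.P352.GF Vale.Agent.P352.BW Vale.Agent.P352.H246 Vale.Agent.P352.H496
open Vale.Agent.P352.H15 Vale.Agent.P352X
open UniformSpace (Completion)

/-- the grading, on the domain and on the Hilbert space -/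
class GrD (D : Type*) [NormedAddCommGroup D] [InnerProductSpace ℂ D] where
  G : D → D
  Γ : Completion D →L[ℂ] Completion D

/-- the group `AN` of the null vector `a`: boosts and null rotations that fix the ray of `a` -/
def AN (a : V) (L : Ix → V) : Prop :=
  ∀ x, GF.mdot a x = 0 → ∃ c : ℝ, sim 1 L 0 x = x + c • a

/-- pairs for which the group law is exact -/
def OkL (L L' : Ix → V) : Prop :=
  L = GF.one ∨ L' = GF.one ∨ ∃ a, IsNull a ∧ AN a L ∧ AN a L'

variable {D : Type*} [NormedAddCommGroup D] [InnerProductSpace ℂ D] [GrD D]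

/-- the grading on the Hilbert space -/
abbrev Gm (D : Type*) [NormedAddCommGroup D] [InnerProductSpace ℂ D] [GrD D] :
    Completion D →L[ℂ] Completion D := GrD.Γ

/-- the grading on the domain -/
abbrev Gd (v : D) : D := GrD.G v

/-- even operators -/
def Ev (X : Completion D →L[ℂ] Completion D) : Prop := Gm D * X * Gm D = X

/-- odd operators -/
def Od (X : Completion D →L[ℂ] Completion D) : Prop := Gm D * X * Gm D = -X

/-- the even part -/
def evp' (X : Completion D →L[ℂ] Completion D) : Completion D →L[ℂ] Completion D :=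
  (2⁻¹ : ℂ) • (X + Gm D * X * Gm D)

/-- the odd part -/
def odp (X : Completion D →L[ℂ] Completion D) : Completion D →L[ℂ] Completion D :=
  (2⁻¹ : ℂ) • (X - Gm D * X * Gm D)

/-- the twist: the even part plus the odd part times the grading -/
def tw (X : Completion D →L[ℂ] Completion D) : Completion D →L[ℂ] Completion D :=
  evp' X + odp X * Gm D

/-- fields of parity `e` -/
def Par (e : Bool) (B : Fld D) : Prop :=
  ∀ f v, GF.IsTest f → B f (Gd v) = EG.sg e • Gd (B f v)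

/-- the re-signed projective representation -/
structure _root_.Vale.Agent.P352.H15.RepZ (Q : Theory D) (A : (V → V) → D → D) : Prop where
  mul : ∀ s L a s' L' a' v, 0 < s → 0 < s' → IsLor L → IsLor L' → OkL L L' →
    Q.U s L a (Q.U s' L' a' v) = Q.U (s * s') (fun m => sim 1 L 0 (L' m)) (sim s L a a') v
  add : ∀ r r' (c : ℝ) X X' v, IsSim r X → IsSim r' X' →
    A (fun z => X z + c • X' z) v = A X v + (c : ℂ) • A X' v
  der : ∀ (s : ℝ → ℝ) (L : ℝ → Ix → V) (a : ℝ → V) X v, s 0 = 1 → L 0 = GF.one → a 0 = 0 →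
    (∀ e, 0 < s e ∧ IsLor (L e)) →
    (∀ n x, HasDerivAt (fun e => sim (s e) (L e) (a e) x n) (X x n) 0) →
    HasDerivAt (fun e => Q.U (s e) (L e) (a e) v) (Complex.I • A X v) 0
  gr : Gr Q GrD.G
  gvac : Gd Q.vac = Q.vac
  ext : ∀ v : D, Gm D v = (Gd v : D)
  cj : ∀ s L a M M' b v, 0 < s → IsLor L → IsLor M → IsLor M' → IsNull b → AN b M →
    (∀ x, sim 1 M' 0 (sim 1 L 0 x) = sim 1 L 0 (sim 1 M 0 x)) →
    Q.U s L a (Q.U 1 M 0 v) = Q.U 1 M' (a - sim 1 M' 0 a) (Q.U s L a v)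

/-- graded local nets over the re-signed representation -/
structure _root_.Vale.Agent.P352.BW.LNmZ (Q : Theory D) (A : (V → V) → D → D)
    (𝒜 : Set V → VonNeumannAlgebra (Completion D)) : Prop extends RepZ Q A where
  fld : ∀ O B f, Q.fld B → In O f → Aff (𝒜 O) (B f)
  mono : ∀ O O', O ⊆ O' → ∀ X ∈ 𝒜 O, X ∈ 𝒜 O'
  cov : ∀ s L y O, ∀ X ∈ 𝒜 O, 0 < s → IsLor L →
    ∃ Y ∈ 𝒜 (sim s L y '' O), ∀ z, Y (Ue Q s L y z) = Ue Q s L y (X z)
  gam : ∀ O, ∀ X ∈ 𝒜 O, Gm D * X * Gm D ∈ 𝒜 O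
  loc : ∀ a b X, IsNull a → IsNull b → GF.mdot a b = 1 → X ∈ 𝒜 (Wdg b a 0) →
    X + Gm D * X * Gm D ∈ (𝒜 (Wdg a b 0)).commutant ∧
      (X - Gm D * X * Gm D) * Gm D ∈ (𝒜 (Wdg a b 0)).commutant

/-- every field is a finite sum of components of multiplets with parity and spin -/
def _root_.Vale.Agent.P352.BW.TfGenZ (Q : Theory D) : Prop := ∀ A, Q.fld A → ∃ (n : ℕ) (B : Fin n → Fld D),
  (∀ i, ∃ e k Φ a, IsMf Q k Φ ∧ (∀ b, Par e (Φ b)) ∧ B i = Φ a) ∧
    ∀ f v, GF.IsTest f → A f v = ∑ i, B i f v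

theorem _root_.Vale.Agent.P352.BW.LNmZ.lng {Q : Theory D} {A : (V → V) → D → D}
    {𝒜 : Set V → VonNeumannAlgebra (Completion D)} (h : LNmZ Q A 𝒜) :
    LNg Q GrD.G A (Gm D) 𝒜 :=
  { h.gr with
    vac := h.gvac, add := h.add, der := h.der, ext := h.ext, fld := h.fld, mono := h.mono
    cov := h.cov, gam := h.gam, loc := h.loc }

/-- the graded context of block EG -/
def _root_.Vale.Agent.P352.BW.LNmZ.cg {Q : Theory D} {A : (V → V) → D → D}
    {𝒜 : Set V → VonNeumannAlgebra (Completion D)} (h : LNmZ Q A 𝒜) : EG.Cg D :=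
  ⟨Q, GrD.G, A, Gm D, 𝒜, h.lng⟩

/-- `Q'` is `Q` with re-signed similitudes -/
structure Rs (Q Q' : Theory D) : Prop where
  vac : Q'.vac = Q.vac
  fld : Q'.fld = Q.fld
  bose : Q'.bose = Q.bose
  U : ∀ L, IsLor L → ∃ e : Bool, (L = GF.one → e = false) ∧ ∀ s a v, 0 < s →
    Q'.U s L a v = cond e (Gd (Q.U s L a v)) (Q.U s L a v)

variable (D)

/-- row RSG: the re-signed theory -/
def RSG : Prop := ∀ (Q : Theory D) A N, LNg Q GrD.G A (Gm D) N →
  ∃ Q' : Theory D, Rs Q Q' ∧ LNmZ Q' A N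

/-- row TRF: the hypotheses pass to the re-signed theory -/
def TRF : Prop := ∀ (Q Q' : Theory D) A N, LNg Q GrD.G A (Gm D) N → Rs Q Q' →
  (∀ T, Q.IsStress T → Q'.IsStress T) ∧ (∀ T, ND.PCh Q T A → ND.PCh Q' T A) ∧
    (UVac Q → UVac Q') ∧ (FSL Q → FSL Q') ∧ (MfAll Q → TfGenZ Q' ∧ MfAll Q')

/-- row BWG: the theorem of Bisognano and Wichmann on the whole Hilbert space -/
def BWG : Prop := ∀ (Q : Theory D) A (𝒜 : Set V → VonNeumannAlgebra (Completion D)),
  LNmZ Q A 𝒜 → TfGenZ Q → ∀ (a b : V) (t : ℝ) (L : Ix → V)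
    (E : P132.ModData (𝒜 (Wdg a b 0)) (om Q)) (z : Completion D), IsNull a → IsNull b →
    GF.mdot a b = 1 → IsLor L →
    (∀ x, sim 1 L 0 x = x + ((Real.exp (-(2 * Real.pi * t)) - 1) * GF.mdot b x) • a +
      ((Real.exp (2 * Real.pi * t) - 1) * GF.mdot a x) • b) → E.U t z = Ue Q 1 L 0 z

/-- row GENL: the Lorentz group is generated by `AN a`, `AN b` and the stabilizer of `a`, `b` -/
def GENL : Prop := ∀ P : (Ix → V) → Prop,
  (∀ L, IsLor L → AN va L → P L) → (∀ L, IsLor L → AN vb L → P L) →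
  (∀ L, IsLor L → sim 1 L 0 va = va → sim 1 L 0 vb = vb → P L) →
  (∀ L L', IsLor L → IsLor L' → P L → P L' → P fun m => sim 1 L 0 (L' m)) →
  ∀ L, IsLor L → P L

/-- row DUG: twisted duality and the core, for the wedge with edge through the origin -/
def DUG : Prop := ∀ (Q : Theory D) A (𝒜 : Set V → VonNeumannAlgebra (Completion D)),
  LNmZ Q A 𝒜 → TfGenZ Q → ∀ a b y, IsNull a → IsNull b → 0 < GF.mdot a b →
    (∀ X, X ∈ (𝒜 (Wdg a b y)).commutant ↔ tw X ∈ 𝒜 (Wdg b a y)) ∧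
    ∀ e ψ ψ', Gm D ψ = EG.sg e • ψ → Gm D ψ' = EG.sg e • ψ' →
      (∀ X X', Al Q (Wdg b a y) X X' → inner ℂ ((X' Q.vac : D) : Completion D) ψ =
        EG.sg e * inner ℂ ψ' ((X Q.vac : D) : Completion D)) → Pr (𝒜 (Wdg a b y)) (om Q) ψ ψ'

/-- row JUG: the modular conjugation of the wedge and the similitudes -/
def JUG : Prop := ∀ (Q : Theory D) A (𝒜 : Set V → VonNeumannAlgebra (Completion D)),
  LNmZ Q A 𝒜 → TfGenZ Q → ∀ (E : P132.ModData (𝒜 (Wdg va vb 0)) (om Q)),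
    (∀ z, E.J (Gm D z) = Gm D (E.J z)) ∧
    (∀ s L a z, 0 < s → IsLor L → (L = GF.one ∨ AN va L ∨ AN vb L) →
      E.J (Ug Q s L a z) = Ug Q s (jL L) (jr a) (E.J z)) ∧
    ∀ s L a, 0 < s → IsLor L → ∃ e : Bool, ∀ z,
      E.J (Ug Q s L a z) = cond e (Gm D) 1 (Ug Q s (jL L) (jr a) (E.J z))

end Vale.Agent.P352G

end
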