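import Vale.Agent.P352G.Top
import Vale.Agent.P352G6.Cov
import Vale.Agent.P352G23.NI
import Vale.Agent.P352G94.FIN
import Vale.Agent.P352X.CA.W2
import Vale.Agent.P352X.EG.W
import Vale.Agent.P352Z.P352NA.W0
import Vale.Agent.P352Z.P352X.TPD.Fin

/-!
# P352G: the theorem
-/

set_option linter.all false

open Filter Topology

namespace Vale.Agent.P352G

open Vale.Agent.P352 Vale.Agent.P352.GF Vale.Agent.P352.BW Vale.Agent.P352.H246
open Vale.Agent.P352.H496 Vale.Agent.P352.H755 Vale.Agent.P352.H15 Vale.Agent.P352X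
open Vale.Agent.P352X.CA (MixC lsc_pos)
open Vale.Agent.P352X.TPD (Lsc)
open UniformSpace (Completion)

universe u

variable (D : Type u) [NormedAddCommGroup D] [InnerProductSpace ℂ D]

theorem cxn [GrD D] : CXN D := fun Q T A N hT hP hG hN hU => by
  obtain ⟨wp, wm, t, hTP⟩ := tp_ofZ Q T hT A hP hG N hN hU
  obtain ⟨c, h1, h2, h3, h4, h5⟩ := ctx_rowZ D Q T A N wp wm t True hT hP hG hN hU fun _ => hTP
  exact ⟨c, h1, h2, h4, h3, h5 ▸ trivial⟩

theorem nic [GrD D] : NIC D := fun c tp hM hF =>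
  haveI : Fact c.tp := ⟨tp⟩
  Pf.G.ni_of (t2_thmZ c) (EB.NA.g1_thmZ c) (EB.NA.ee_thmZ c)
    (EG.NG.cov_row (EG.e0_thm c.cg) hM hF)

theorem mxz [GrD D] : MXZ D := by
  intro c w v _
  have hU := ublockZ c.hN.toRepZ
  have h1 : inner ℂ (om c.Q) (om c.Q) = 1 := by
    rw [inner_self_eq_norm_sq_to_K, om, Completion.norm_coe, c.Q.norm_vac]
    simp
  set κ : ℂ := inner ℂ (om c.Q) v
  have h0 : inner ℂ c.Om (v - κ • om c.Q) = 0 := by
    show inner ℂ (om c.Q) _ = 0
    rw [inner_sub_right, inner_smul_right, h1, mul_one, sub_self]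
  have h := (bas_thmZ c).wn {r : ℝ // 0 < r} (comap Subtype.val (𝓝 0)) Subtype.val (fun _ => 1)
    (fun _ => 0) (fun _ => v - κ • om c.Q) _ w (fun r => ⟨r.2, one_pos⟩)
    (Or.inr (Or.inl tendsto_comap)) tendsto_const_nhds h0
  have h2 := ((Complex.continuous_conj.tendsto _).comp h).add_const (inner ℂ w (om c.Q) * κ)
  rw [map_zero, zero_add] at h2
  rw [nhdsWithin, show Set.Ioi (0 : ℝ) = Set.range (Subtype.val : {r : ℝ // 0 < r} → ℝ) from
    Subtype.range_coe_subtype.symm, ← Filter.map_comap, tendsto_map'_iff]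
  refine h2.congr fun r => ?_
  obtain ⟨p1, p2⟩ := lsc_pos r.2
  have e1 : ∀ z, Ut c.Q 0 z = z := fun z => by
    obtain ⟨W, hW⟩ := hU.lin 1 GF.one 0 one_pos H496.isLor_one
    refine W.injective ?_
    rw [hW, hW, Ut, Ug_apply _ one_pos H496.isLor_one, hU.mul _ _ _ _ _ _ _ one_pos one_pos
      H496.isLor_one H496.isLor_one (.inl rfl)]
    congr 1
    · exact one_mul 1
    · funext m n
      simp [sim, GF.one, bas]
    · funext n
      simp [sim]
  have e2 : Usc c.Q r 1 (v - κ • om c.Q) =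
      Ue c.Q (Real.sqrt (r * 1)) (Lsc r 1) 0 v - κ • om c.Q := by
    show Ug c.Q (Real.sqrt (r * 1)) (Lsc r 1) 0 _ = _
    rw [map_sub, map_smul, Ug_apply _ p1 p2, Ug_apply _ p1 p2, hU.vac _ _ _ p1 p2]
  simp only [Function.comp_apply, e1, e2, inner_conj_symm, inner_sub_right, inner_smul_right]
  ring

/-- **the theorem** -/
theorem target : Target D := target_of4 D ⟨cxn D, nic D, mxz D⟩ (EG.NG.nag D)

end Vale.Agent.P352G
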