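import Vale.Agent.P352G87.Top3
import Vale.Agent.P352G97.Wir
import Vale.Agent.P352Z.P352X.Spec

/-!
# P352G: from the rows to the theorem
-/

set_option linter.all false

namespace Vale.Agent.P352G

open Vale.Agent.P352 Vale.Agent.P352.GF Vale.Agent.P352.BW Vale.Agent.P352.H246
open Vale.Agent.P352.H496 Vale.Agent.P352.H15 Vale.Agent.P352X
open UniformSpace (Completion)

universe u

variable (D : Type u) [NormedAddCommGroup D] [InnerProductSpace ℂ D]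

/-- row CXN: the context with a given net -/
def CXN [GrD D] : Prop := ∀ (Q : Theory D) T A N, Q.IsStress T → ND.PCh Q T A → TfGenZ Q →
  LNmZ Q A N → UVac Q → ∃ c : CtxZ D, c.Q = Q ∧ c.T = T ∧ c.A = A ∧ c.N = N ∧ c.tp

/-- row NIC: the interface of the graded net-only route -/
def NIC [GrD D] : Prop := ∀ (c : CtxZ D), c.tp → MfAll c.Q → FSL c.Q →
  @EG.NG.NI D _ _ c.cg ⟨c.T, c.l, c.SK⟩

/-- row MXZ: mixing -/
def MXZ [GrD D] : Prop := ∀ c : CtxZ D, MixE c.Q (Gm D)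

theorem niz_of [GrD D] (h1 : CXN D) (h2 : NIC D) (h3 : MXZ D) : NIZ D := by
  intro Q T A N hN hT hA hG hM hF hU
  obtain ⟨c, rfl, rfl, rfl, rfl, tp⟩ := h1 Q T A N hT hA hG hN hU
  exact ⟨⟨⟨c.T, c.l, c.SK⟩, rfl, h2 c tp hM hF⟩, h3 c⟩

theorem target_of4 (h : ∀ [GrD D], CXN D ∧ NIC D ∧ MXZ D) (h4 : NAG D) : Target D :=
  target_of3 ⟨P352G97.rsg_row, niz_of D h.1 h.2.1 h.2.2⟩ h4

end Vale.Agent.P352G
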